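import Vale.Agent.P032W.S5.H360.Degree
import Vale.Agent.P032X.S5.H80.Ends
import Vale.Agent.P032X.S5.H843.Core7
import Vale.Agent.P032X.H892.Cross

/-!
# P032: special ends (wild frame `Irr U T`; `Mn` only where it is written)

* `no_sub_lim`, `no_sub_lim'` (kind W2L): if `P` is a limit of points `v` with `T v ⊆ L`, `|T v| ≤ 3`, `Q ⊆ T v`,
  then no point `q` of `S(P)` has `T q ⊆ Q`.
* `contact`: lists on the circle about a point of `S(z)` near the two-pair centre `z`.
* `good_or_arc`, `dich4`, `dich_mix` (dichotomy of a four-coloured end).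
-/

open Set Filter Topology Metric

noncomputable section

namespace Vale.Agent.P032.H22

open Vale.Agent.P032.Six Vale.Agent.P032.S5.H767 Vale.Agent.P032.H892

section

variable {k : ℕ} {U : Fin k → Set ℂ} {T : ℂ → Set (Fin k)}

/-- **W2L, pointwise.** `P` is a limit of points `v` with at most three colours: for such `v` close to `P` no palette
of a point `q` of `S(P)` is contained in `T v`. -/
theorem near_not_sub (h : Irr U T) {P q : ℂ} (hq : dist q P = 1) :
    ∀ᶠ v in 𝓝 P, (T v).ncard ≤ 3 → ¬ T q ⊆ T v := by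
  filter_upwards [h.no_layer hq] with v hv h3 hsub
  have := hv hsub
  omega

/-- **W2L**: `P` is a limit of points with the palette `L`, `|L| ≤ 3`: no point of `S(P)` has its palette inside `L`. -/
theorem not_sub_lim (h : Irr U T) {P q : ℂ} {L : Set (Fin k)} (hL : L.ncard ≤ 3)
    (hlim : ∃ᶠ v in 𝓝 P, T v = L) (hq : dist q P = 1) : ¬ T q ⊆ L := by
  intro hsub
  obtain ⟨v, hv, hv'⟩ := (hlim.and_eventually (near_not_sub h hq)).exists
  exact hv' (by rw [hv]; exact hL) (by rw [hv]; exact hsub)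

/-- the end of an exact arc: `P ∈ closure {v | T v = {a, b}}` -/
theorem not_sub_pair (h : Irr U T) {P q : ℂ} {a b : Fin k} (hlim : ∃ᶠ v in 𝓝 P, T v = {a, b})
    (hq : dist q P = 1) : ¬ T q ⊆ {a, b} :=
  not_sub_lim h (by
    have := Set.ncard_insert_le a ({b} : Set (Fin k))
    rw [Set.ncard_singleton] at this
    omega) hlim hq

/-- a limit of points of `S(z)` with an exact palette -/
theorem lim_of_arc {z P : ℂ} {L : Set (Fin k)} (hlim : ∃ᶠ v in 𝓝[sphere z 1] P, T v = L) :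
    ∃ᶠ v in 𝓝 P, T v = L := hlim.filter_mono nhdsWithin_le_nhds

/-- **contact**: near the centre `z`, with the colours `a, b, c, d` only; `y` and `y'` are points of `S(z)` with side
data at the centre (`Irr.sd_center`: interior points of exact arcs; `Mx.sd_center_end`: ends).  A point `q` near `z`
outside `D(y)` and inside `D(y')` has only the colours `b, c`. -/
theorem contact (h : Irr U T) {z y y' : ℂ} {a b c d : Fin k} (hz : T z ⊆ {a, b, c, d})
    (hy : Sd U y z a b) (hy' : Sd U y' z c d) :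
    ∀ᶠ q in 𝓝 z, 1 < dist q y → dist q y' < 1 → T q ⊆ {b, c} := by
  filter_upwards [h.nhd z, hy, hy'] with q h1 h2 h3 h4 h5 i hi
  rcases hz (h1 hi) with rfl | rfl | rfl | h6
  · exact absurd (h.sub q hi) (h2.1 h4)
  · exact Or.inl rfl
  · exact Or.inr rfl
  · rw [mem_singleton_iff] at h6
    subst h6
    exact absurd (h.sub q hi) (h3.2 h5)

/-- **contact arc**: if `b, c ∈ T V`, `V ∈ S(z)`, the points `q` of `S(V)` near `z` outside `D(y)` and inside `D(y')`
have exactly the colours `b, c` -/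
theorem contact_arc (h : Irr U T) {z y y' V : ℂ} {a b c d : Fin k} (hz : T z ⊆ {a, b, c, d})
    (hy : Sd U y z a b) (hy' : Sd U y' z c d) (hb : b ∈ T V) (hc : c ∈ T V) :
    ∀ᶠ q in 𝓝 z, dist q V = 1 → 1 < dist q y → dist q y' < 1 → T q = {b, c} := by
  filter_upwards [contact h hz hy hy'] with q h1 h2 h3 h4
  have h5 := h1 h3 h4
  refine Subset.antisymm h5 ?_
  have key : ∀ i j : Fin k, T q ⊆ {i, j} → j ∈ T V → i ∈ T q := by
    intro i j hij hj
    by_contra hi
    have h6 : T q ⊆ {j} := by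
      intro m hm
      rcases hij hm with rfl | h7
      · exact absurd hm hi
      · exact h7
    exact h.mx.notMem' (h.mem_of_single h6) (by rw [dist_comm] at h2; rw [dist_comm]; exact h2)
      (h.sub V hj)
  rintro m (rfl | hm)
  · exact key m c h5 hc
  · rw [mem_singleton_iff] at hm
    subst hm
    exact key m b (by rwa [pair_comm]) hb

end

section six

variable {U : Fin 6 → Set ℂ} {T : ℂ → Set (Fin 6)}

/-- a four-coloured limit `P` of exact `ab`-points, `x` a third colour of `P`: a point of `S(P)` with palette inside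
`{a, b, x}` gives an exact arc `{a, x}` or `{b, x}` of `S(P)` -/
theorem arc_of_bad (h : Irr U T) {P q : ℂ} {a b x : Fin 6} (h4 : (T P).ncard = 4)
    (hlim : ∃ᶠ v in 𝓝 P, T v = {a, b}) (hab : a ≠ b) (hx : ({a, b, x} : Set (Fin 6)) ⊆ T P)
    (hq : dist q P = 1) (hsub : T q ⊆ {a, b, x}) :
    ∃ i p, (i = a ∨ i = b) ∧ Arc T P p {i, x} := by
  obtain ⟨p, -, hp, hpc, hpq, hp2, hp3⟩ := h.arc_of_sub hq (hsub.trans hx) univ_mem
  have h5 : (T p).ncard = 2 := by
    have h6 := Set.ncard_sdiff (hpq.trans (hsub.trans hx)) (Set.toFinite _)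
    omega
  have hnot := not_sub_pair h hlim hp
  obtain ⟨i, j, hij, hTp⟩ := Set.ncard_eq_two.1 h5
  have hsub2 : T p ⊆ {a, b, x} := hpq.trans hsub
  have hxm : x ∈ T p := by
    by_contra hxn
    refine hnot fun m hm => ?_
    rcases hsub2 hm with rfl | rfl | hm'
    · exact Or.inl rfl
    · exact Or.inr rfl
    · rw [mem_singleton_iff] at hm'
      subst hm'
      exact absurd hm hxn
  -- the other element
  obtain ⟨l, hl, hlx⟩ : ∃ l, l ≠ x ∧ T p = {l, x} := by
    rw [hTp] at hxm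
    rcases hxm with rfl | hxm
    · exact ⟨j, hij.symm, by rw [hTp, pair_comm]⟩
    · rw [mem_singleton_iff] at hxm
      subst hxm
      exact ⟨i, hij, hTp⟩
  have hlm : l ∈ ({a, b, x} : Set (Fin 6)) := hsub2 (by rw [hlx]; exact Or.inl rfl)
  refine ⟨l, p, ?_, hp, ?_⟩
  · rcases hlm with rfl | rfl | hlm
    · exact Or.inl rfl
    · exact Or.inr rfl
    · exact absurd hlm hl
  · filter_upwards [hpc] with w hw
    rw [hw, hlx]

/-- two exact arcs of a four-coloured point with different pairs are disjoint (`Mn`) -/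
theorem arcs_disjoint (h : Irr U T) (hmin : Mn U T) {P p p' : ℂ} {i x j y : Fin 6} (h4 : (T P).ncard = 4)
    (hix : i ≠ x) (hjy : j ≠ y) (h1 : Arc T P p {i, x}) (h2 : Arc T P p' {j, y})
    (hs1 : ({i, x} : Set (Fin 6)) ⊆ T P) (hs2 : ({j, y} : Set (Fin 6)) ⊆ T P) :
    ({i, x} : Set (Fin 6)) = {j, y} ∨ Disjoint ({i, x} : Set (Fin 6)) {j, y} := by
  have e1 := h1.mem
  have e2 := h2.mem
  have := h.pairs_disjoint hmin h4 h1.1 h2.1 (by rw [e1]; exact hs1) (by rw [e2]; exact hs2)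
    (by rw [e1]; exact Set.ncard_pair hix) (by rw [e2]; exact Set.ncard_pair hjy)
  rwa [e1, e2] at this

/-- **Dichotomy, end with both foreign colours.** `T P = {a, b, e, f}`, `P` a limit of exact `ab`-points: `P` obeys the
list rule of a clean end `{a, b, e}`, or the one of a clean end `{a, b, f}`, or it is a two-pair point whose pairs
separate `a` and `b`. -/
theorem dich_ef (h : Irr U T) (hmin : Mn U T) {P : ℂ} {a b e f : Fin 6} (hP : T P = {a, b, e, f})
    (hlim : ∃ᶠ v in 𝓝 P, T v = {a, b}) (hab : a ≠ b) (hae : a ≠ e) (haf : a ≠ f) (hbe : b ≠ e)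
    (hbf : b ≠ f) (hef : e ≠ f) :
    (∀ q, dist q P = 1 → ¬ T q ⊆ {a, b, e}) ∨ (∀ q, dist q P = 1 → ¬ T q ⊆ {a, b, f}) ∨
      DPt T P a e b f ∨ DPt T P a f b e := by
  have h4 : (T P).ncard = 4 := by
    rw [hP, Set.ncard_insert_of_notMem (by simp [hab, hae, haf]),
      Set.ncard_insert_of_notMem (by simp [hbe, hbf]), Set.ncard_pair hef]
  by_contra hcon
  push Not at hcon
  obtain ⟨⟨q, hq, hqs⟩, ⟨q', hq', hqs'⟩, hD1, hD2⟩ := hcon
  have sa : a ∈ T P := by rw [hP]; simp
  have sb : b ∈ T P := by rw [hP]; simp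
  have se : e ∈ T P := by rw [hP]; simp
  have sf : f ∈ T P := by rw [hP]; simp
  have sub3 : ∀ {x : Fin 6}, x ∈ T P → ({a, b, x} : Set (Fin 6)) ⊆ T P := by
    rintro x hx m (rfl | rfl | hm)
    · exact sa
    · exact sb
    · rw [mem_singleton_iff] at hm; subst hm; exact hx
  have sub2 : ∀ {i x : Fin 6}, i ∈ T P → x ∈ T P → ({i, x} : Set (Fin 6)) ⊆ T P := by
    rintro i x hi hx m (rfl | hm)
    · exact hi
    · rw [mem_singleton_iff] at hm; subst hm; exact hx
  obtain ⟨i, p, hi, hp⟩ := arc_of_bad h h4 hlim hab (sub3 se) hq hqs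
  obtain ⟨j, p', hj, hp'⟩ := arc_of_bad h h4 hlim hab (sub3 sf) hq' hqs'
  rcases hi with hi | hi <;> rcases hj with hj | hj <;> rw [hi] at hp <;> rw [hj] at hp'
  · rcases arcs_disjoint h hmin h4 hae haf hp hp' (sub2 sa se) (sub2 sa sf) with h5 | h5
    · have : e ∈ ({a, f} : Set (Fin 6)) := h5 ▸ Or.inr rfl
      rcases this with h6 | h6
      · exact hae h6.symm
      · exact hef h6
    · exact Set.disjoint_left.1 h5 (Or.inl rfl) (Or.inl rfl)
  · refine hD1 ⟨?_, hab, haf, hbe.symm, hef, hae, hbf, ⟨p, hp⟩, ⟨p', hp'⟩⟩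
    rw [hP]; ext m; simp only [mem_insert_iff, mem_singleton_iff]; tauto
  · refine hD2 ⟨?_, hab, hae, hbf.symm, hef.symm, haf, hbe, ⟨p', hp'⟩, ⟨p, hp⟩⟩
    rw [hP]; ext m; simp only [mem_insert_iff, mem_singleton_iff]; tauto
  · rcases arcs_disjoint h hmin h4 hbe hbf hp hp' (sub2 sb se) (sub2 sb sf) with h5 | h5
    · have : e ∈ ({b, f} : Set (Fin 6)) := h5 ▸ Or.inr rfl
      rcases this with h6 | h6
      · exact hbe h6.symm
      · exact hef h6
    · exact Set.disjoint_left.1 h5 (Or.inl rfl) (Or.inl rfl)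

/-- **Dichotomy, end with a colour of the other pair.** `T P = {a, b, x, c}`, `P` a limit of exact `ab`-points, and
`S(P)` has an exact `bc`-arc (`contact_arc`: next to the two-pair centre): `P` obeys the list rule of a clean end
`{a, b, x}`, or it is a two-pair point with the pairs `bc | ax`. -/
theorem dich_mix (h : Irr U T) (hmin : Mn U T) {P : ℂ} {a b c x : Fin 6} (hP : T P = {a, b, x, c})
    (hlim : ∃ᶠ v in 𝓝 P, T v = {a, b}) (hab : a ≠ b) (hax : a ≠ x) (hac : a ≠ c) (hbx : b ≠ x)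
    (hbc : b ≠ c) (hxc : x ≠ c) (hbcA : ∃ p, Arc T P p {b, c}) :
    (∀ q, dist q P = 1 → ¬ T q ⊆ {a, b, x}) ∨ DPt T P b c a x := by
  have h4 : (T P).ncard = 4 := by
    rw [hP, Set.ncard_insert_of_notMem (by simp [hab, hax, hac]),
      Set.ncard_insert_of_notMem (by simp [hbx, hbc]), Set.ncard_pair hxc]
  by_contra hcon
  push Not at hcon
  obtain ⟨⟨q, hq, hqs⟩, hD⟩ := hcon
  obtain ⟨p', hp'⟩ := hbcA
  have sa : a ∈ T P := by rw [hP]; simp
  have sb : b ∈ T P := by rw [hP]; simp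
  have sx : x ∈ T P := by rw [hP]; simp
  have sc : c ∈ T P := by rw [hP]; simp
  have sub3 : ({a, b, x} : Set (Fin 6)) ⊆ T P := by
    rintro m (rfl | rfl | hm)
    · exact sa
    · exact sb
    · rw [mem_singleton_iff] at hm; subst hm; exact sx
  have sub2 : ∀ {i x : Fin 6}, i ∈ T P → x ∈ T P → ({i, x} : Set (Fin 6)) ⊆ T P := by
    rintro i x hi hx m (rfl | hm)
    · exact hi
    · rw [mem_singleton_iff] at hm; subst hm; exact hx
  obtain ⟨i, p, hi, hp⟩ := arc_of_bad h h4 hlim hab sub3 hq hqs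
  rcases hi with hi | hi <;> rw [hi] at hp
  · refine hD ⟨?_, hab.symm, hbx, hac.symm, hxc.symm, hbc, hax, ⟨p', hp'⟩, ⟨p, hp⟩⟩
    rw [hP]; ext m; simp only [mem_insert_iff, mem_singleton_iff]; tauto
  · rcases arcs_disjoint h hmin h4 hbx hbc hp hp' (sub2 sb sx) (sub2 sb sc) with h5 | h5
    · have : x ∈ ({b, c} : Set (Fin 6)) := h5 ▸ Or.inr rfl
      rcases this with h6 | h6
      · exact hbx h6.symm
      · exact hxc h6
    · exact Set.disjoint_left.1 h5 (Or.inl rfl) (Or.inl rfl)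

/-! ### good ends: the list rules of a clean end -/

/-- `P` obeys the list rule of a clean end `{a, b, x}`: no palette on `S(P)` inside `{a, b, x}` -/
def Good (T : ℂ → Set (Fin 6)) (P : ℂ) (a b x : Fin 6) : Prop :=
  ∀ q, dist q P = 1 → ¬ T q ⊆ {a, b, x}

/-- clean ends are good -/
theorem good_of_clean (h : Irr U T) {P : ℂ} {a b x : Fin 6} (hP : T P = {a, b, x}) : Good T P a b x := by
  intro q hq hsub
  refine h.not_sub hq ?_ (by rw [hP]; exact hsub)
  rw [hP]
  have h1 := Set.ncard_insert_le a ({b, x} : Set (Fin 6))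
  have h2 := Set.ncard_insert_le b ({x} : Set (Fin 6))
  rw [Set.ncard_singleton] at h2
  omega

variable {z : ℂ} {a b c d e f : Fin 6}

/-- **(G) at a good end** -/
theorem pgram_good (C : Ctr U T z a b c d e f) {P R : ℂ} {x y : Fin 6}
    (hx : (x = e ∧ y = f) ∨ (x = f ∧ y = e)) (hP : dist P z = 1) (hg : Good T P a b x)
    (hR : R ∈ Ex T z {c, d}) (hPR : P ≠ R) (hopp : P + R ≠ 2 * z) : y ∈ T (P + R - z) := by
  obtain ⟨h1, h2⟩ := pg_off C.irr hP hR hPR hopp
  have h3 := hg (P + R - z) (by rw [dist_pg.2]; exact hR.1)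
  rw [not_subset] at h3
  obtain ⟨t, ht, htn⟩ := h3
  simp only [mem_insert_iff, mem_singleton_iff, not_or] at htn
  obtain ⟨ta, tb, tx⟩ := htn
  rcases C.all t with h4 | h4 | h4 | h4 | h4 | h4
  · exact absurd h4 ta
  · exact absurd h4 tb
  · rw [h4] at ht; exact absurd ht h1
  · rw [h4] at ht; exact absurd ht h2
  · rcases hx with ⟨h5, h6⟩ | ⟨h5, h6⟩
    · exact absurd (h4.trans h5.symm) tx
    · rw [h6, ← h4]; exact ht
  · rcases hx with ⟨h5, h6⟩ | ⟨h5, h6⟩
    · rw [h6, ← h4]; exact ht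
    · exact absurd (h4.trans h5.symm) tx

/-- **corner of two good ends**: `w = P + Q - z` has a colour of the pair of `Q` -/
theorem corner_good (C : Ctr U T z a b c d e f) {P Q : ℂ} {x y : Fin 6}
    (hx : (x = e ∧ y = f) ∨ (x = f ∧ y = e)) (hP : dist P z = 1) (hQ : dist Q z = 1)
    (hg : Good T P a b x) (hyQ : y ∈ T Q) (hPQ : P ≠ Q) (hopp : P + Q ≠ 2 * z) :
    c ∈ T (P + Q - z) ∨ d ∈ T (P + Q - z) := by
  by_contra hcon
  push Not at hcon
  obtain ⟨hc, hd⟩ := hcon
  have hwP : dist (P + Q - z) P = 1 := by rw [dist_pg.2]; exact hQ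
  have hwQ : dist (P + Q - z) Q = 1 := by rw [dist_pg.1]; exact hP
  have hJ : ∀ᶠ q in 𝓝[sphere P 1] (P + Q - z), y ∈ T q := by
    filter_upwards [mem_nhdsWithin_of_mem_nhds (C.irr.nhd (P + Q - z)), self_mem_nhdsWithin] with q h1 h2
    have h3 := hg q h2
    rw [not_subset] at h3
    obtain ⟨t, ht, htn⟩ := h3
    simp only [mem_insert_iff, mem_singleton_iff, not_or] at htn
    obtain ⟨ta, tb, tx⟩ := htn
    rcases C.all t with h4 | h4 | h4 | h4 | h4 | h4
    · exact absurd h4 ta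
    · exact absurd h4 tb
    · rw [h4] at ht; exact absurd (h1 ht) hc
    · rw [h4] at ht; exact absurd (h1 ht) hd
    · rcases hx with ⟨h5, h6⟩ | ⟨h5, h6⟩
      · exact absurd (h4.trans h5.symm) tx
      · rw [h6, ← h4]; exact ht
    · rcases hx with ⟨h5, h6⟩ | ⟨h5, h6⟩
      · rw [h6, ← h4]; exact ht
      · exact absurd (h4.trans h5.symm) tx
  refine off_arc C.irr hwP hJ hwQ hPQ.symm ?_ hyQ
  intro h5
  apply hopp
  linear_combination -h5

end six

end Vale.Agent.P032.H22
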